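import Mathlib

namespace Vale.Agent.Lib.P346

/-- A layered circuit of type sum-product-sum-product-sum over `K` in the variables `σ`.
Layers from the bottom: leaves, bottom sum gates, lower product gates, middle sum gates,
upper product gates, and one output sum gate. A sum gate is given by the coefficients of its
linear combination (a zero coefficient means no edge); a product gate is given by the
multiplicities of its inputs (multiplicity zero means no edge). -/
structure Circuit (K : Type) (σ : Type) where
  nLeaf : ℕ
  nSumBot : ℕ
  nProdLow : ℕ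
  nSumMid : ℕ
  nProdTop : ℕ
  leaf : Fin nLeaf → σ ⊕ K
  cBot : Fin nSumBot → Fin nLeaf → K
  mLow : Fin nProdLow → Fin nSumBot → ℕ
  cMid : Fin nSumMid → Fin nProdLow → K
  mTop : Fin nProdTop → Fin nSumMid → ℕ
  cOut : Fin nProdTop → K

/-- Size: the number of vertices (leaves, gates of the four inner layers, output gate). -/
def Circuit.size {K σ : Type} (c : Circuit K σ) : ℕ :=
  c.nLeaf + c.nSumBot + c.nProdLow + c.nSumMid + c.nProdTop + 1

/-- The polynomial computed at the output gate. -/
noncomputable def Circuit.eval {K σ : Type} [CommSemiring K] (c : Circuit K σ) :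
    MvPolynomial σ K :=
  ∑ t, MvPolynomial.C (c.cOut t) * ∏ h,
    (∑ g, MvPolynomial.C (c.cMid h g) * ∏ a,
      (∑ l, MvPolynomial.C (c.cBot a l) *
        Sum.elim MvPolynomial.X MvPolynomial.C (c.leaf l)) ^ c.mLow g a) ^ c.mTop t h

/-- Formal degrees of a syntactically homogeneous circuit: `dBot`, `dMid`, `dOut` are degrees
of the bottom sum gates, the middle sum gates and the output gate such that every input of
a sum gate has the degree of the gate, where a variable leaf has degree one, a constant leaf
degree zero, and a product gate the sum of the degrees of its inputs counted with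
multiplicity. -/
def Circuit.HasDegrees {K σ : Type} [Zero K] (c : Circuit K σ) (dBot : Fin c.nSumBot → ℕ)
    (dMid : Fin c.nSumMid → ℕ) (dOut : ℕ) : Prop :=
  (∀ a l, c.cBot a l ≠ 0 → Sum.elim (fun _ => 1) (fun _ => 0) (c.leaf l) = dBot a) ∧
  (∀ h g, c.cMid h g ≠ 0 → ∑ a, c.mLow g a * dBot a = dMid h) ∧
  (∀ t, c.cOut t ≠ 0 → ∑ h, c.mTop t h * dMid h = dOut)

/-- Syntactic homogeneity: formal degrees `dBot`, `dMid`, `dOut` of the sum gates exist such that
every input of a sum gate has the degree of the gate, where a variable leaf has degree one,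
a constant leaf degree zero, and a product gate the sum of the degrees of its inputs
counted with multiplicity. -/
def Circuit.IsHomogeneous {K σ : Type} [Zero K] (c : Circuit K σ) : Prop :=
  ∃ (dBot : Fin c.nSumBot → ℕ) (dMid : Fin c.nSumMid → ℕ) (dOut : ℕ),
    (∀ a l, c.cBot a l ≠ 0 → Sum.elim (fun _ => 1) (fun _ => 0) (c.leaf l) = dBot a) ∧
    (∀ h g, c.cMid h g ≠ 0 → ∑ a, c.mLow g a * dBot a = dMid h) ∧
    (∀ t, c.cOut t ≠ 0 → ∑ h, c.mTop t h * dMid h = dOut)

/-- Iterated matrix multiplication: the first diagonal entry of the product of `d` generic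
`w × w` matrices, as the sum over all index sequences `i 0, ..., i d` starting and ending at
the first index of the products of the entries `x (k, i k, i (k+1))`. -/
noncomputable def IMM (K : Type) [CommSemiring K] (w d : ℕ) [NeZero w] :
    MvPolynomial (Fin d × Fin w × Fin w) K :=
  ∑ i : Fin (d + 1) → Fin w,
    if i 0 = 0 ∧ i (Fin.last d) = 0 then
      ∏ k : Fin d, MvPolynomial.X (k, i k.castSucc, i k.succ)
    else 0

end Vale.Agent.Lib.P346
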