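import Vale.Agent.Lib.P346.Rank
import Vale.Agent.Lib.P346.Defs

namespace Vale.Agent.Lib.P346

open MvPolynomial

variable {K : Type} [Field K] {n d : ℕ}

/-- exponent vector of the monomial of an index sequence -/
noncomputable def pathMono (i : Fin (d + 1) → Fin n) : (Fin d × Fin n × Fin n) →₀ ℕ :=
  ∑ k : Fin d, Finsupp.single (k, i k.castSucc, i k.succ) 1

theorem pathMono_apply (i : Fin (d + 1) → Fin n) (k : Fin d) (a b : Fin n) :
    pathMono i (k, a, b) = if i k.castSucc = a ∧ i k.succ = b then 1 else 0 := by
  classical
  unfold pathMono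
  rw [Finsupp.finsetSum_apply, Finset.sum_eq_single k]
  · simp [Finsupp.single_apply]
  · intro k' _ hk'
    simp [hk']
  · intro h; exact absurd (Finset.mem_univ k) h

theorem prod_X_eq_monomial (i : Fin (d + 1) → Fin n) :
    (∏ k : Fin d, X (k, i k.castSucc, i k.succ) : MvPolynomial (Fin d × Fin n × Fin n) K) =
      monomial (pathMono i) 1 := by
  unfold pathMono
  rw [monomial_sum_one]
  rfl

/-- the variables of the matrices in even position (counting from zero) -/
def evenVars (n d : ℕ) : Set (Fin d × Fin n × Fin n) := {v | v.1.val % 2 = 0}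

noncomputable def monoY (i : Fin (d + 1) → Fin n) : (Fin d × Fin n × Fin n) →₀ ℕ :=
  (pathMono i).filter (fun v => v.1.val % 2 = 0)

noncomputable def monoZ (i : Fin (d + 1) → Fin n) : (Fin d × Fin n × Fin n) →₀ ℕ :=
  (pathMono i).filter (fun v => ¬ v.1.val % 2 = 0)

theorem monoY_add_monoZ (i : Fin (d + 1) → Fin n) : monoY i + monoZ i = pathMono i :=
  Finsupp.filter_add_filter_not _ _

theorem monoY_support (i : Fin (d + 1) → Fin n) :
    ∀ v ∈ (monoY i).support, v ∈ evenVars n d := by
  intro v hv
  unfold monoY at hv
  rw [Finsupp.support_filter, Finset.mem_filter] at hv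
  exact hv.2

theorem monoZ_support (i : Fin (d + 1) → Fin n) :
    ∀ v ∈ (monoZ i).support, v ∉ evenVars n d := by
  intro v hv
  unfold monoZ at hv
  rw [Finsupp.support_filter, Finset.mem_filter] at hv
  exact hv.2

theorem path_key [NeZero n] (i p q : Fin (d + 1) → Fin n) (hi : i 0 = 0 ∧ i (Fin.last d) = 0)
    (hp : p (Fin.last d) = 0) (hq : q 0 = 0 ∧ q (Fin.last d) = 0)
    (h : pathMono i = monoY p + monoZ q) : i = p ∧ i = q := by
  classical
  have hE : ∀ k : Fin d, k.val % 2 = 0 → p k.castSucc = i k.castSucc ∧ p k.succ = i k.succ := by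
    intro k hk
    have h1 := DFunLike.congr_fun h (k, i k.castSucc, i k.succ)
    rw [pathMono_apply] at h1
    simp only [monoY, monoZ, Finsupp.add_apply, Finsupp.filter_apply, hk, pathMono_apply,
      and_self, if_true, not_true, if_false, add_zero] at h1
    by_contra hcon
    rw [if_neg hcon] at h1
    exact one_ne_zero h1
  have hO : ∀ k : Fin d, k.val % 2 = 1 → q k.castSucc = i k.castSucc ∧ q k.succ = i k.succ := by
    intro k hk
    have hk' : ¬ k.val % 2 = 0 := by omega
    have h1 := DFunLike.congr_fun h (k, i k.castSucc, i k.succ)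
    rw [pathMono_apply] at h1
    simp only [monoY, monoZ, Finsupp.add_apply, Finsupp.filter_apply, hk', pathMono_apply,
      and_self, if_true, not_false_eq_true, if_false, zero_add] at h1
    by_contra hcon
    rw [if_neg hcon] at h1
    exact one_ne_zero h1
  constructor
  · funext j
    by_cases hj : j.val % 2 = 1
    · have hlt : j.val - 1 < d := by have := j.isLt; omega
      have hk := (hE ⟨j.val - 1, hlt⟩ (by simp only; omega)).2
      have : (⟨j.val - 1, hlt⟩ : Fin d).succ = j := Fin.ext (by simp only [Fin.val_succ]; omega)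
      rw [this] at hk
      exact hk.symm
    · by_cases hjd : j.val < d
      · have hk := (hE ⟨j.val, hjd⟩ (by simp only; omega)).1
        have : (⟨j.val, hjd⟩ : Fin d).castSucc = j := Fin.ext (by simp)
        rw [this] at hk
        exact hk.symm
      · have : j = Fin.last d := Fin.ext (by have := j.isLt; simp only [Fin.val_last]; omega)
        rw [this, hi.2, hp]
  · funext j
    by_cases hj0 : j.val = 0
    · have : j = 0 := Fin.ext (by simpa using hj0)
      rw [this, hi.1, hq.1]
    by_cases hj : j.val % 2 = 0
    · have hlt : j.val - 1 < d := by have := j.isLt; omega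
      have hk := (hO ⟨j.val - 1, hlt⟩ (by simp only; omega)).2
      have : (⟨j.val - 1, hlt⟩ : Fin d).succ = j := Fin.ext (by simp only [Fin.val_succ]; omega)
      rw [this] at hk
      exact hk.symm
    · by_cases hjd : j.val < d
      · have hk := (hO ⟨j.val, hjd⟩ (by simp only; omega)).1
        have : (⟨j.val, hjd⟩ : Fin d).castSucc = j := Fin.ext (by simp)
        rw [this] at hk
        exact hk.symm
      · have : j = Fin.last d := Fin.ext (by have := j.isLt; simp only [Fin.val_last]; omega)
        rw [this, hi.2, hq.2]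

/-- extend an inner index sequence by the first index at both ends -/
def extPath [NeZero n] (p : Fin (d - 1) → Fin n) : Fin (d + 1) → Fin n :=
  fun j => if h : 0 < j.val ∧ j.val < d then p ⟨j.val - 1, by omega⟩ else 0

theorem extPath_zero [NeZero n] (p : Fin (d - 1) → Fin n) : extPath p 0 = 0 := by
  simp [extPath]

theorem extPath_last [NeZero n] (p : Fin (d - 1) → Fin n) : extPath p (Fin.last d) = 0 := by
  simp [extPath]

theorem extPath_injective [NeZero n] : Function.Injective (extPath : (Fin (d - 1) → Fin n) → _) := by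
  intro p q h
  funext k
  have hk := k.isLt
  have h1 := congr_fun h ⟨k.val + 1, by omega⟩
  have hc : 0 < k.val + 1 ∧ k.val + 1 < d := by omega
  simp only [extPath, hc, and_self, dif_pos, Nat.add_sub_cancel] at h1
  exact h1

theorem coeff_IMM [NeZero n] (p q : Fin (d - 1) → Fin n) :
    coeff (monoY (extPath p) + monoZ (extPath q)) (IMM K n d) = if p = q then 1 else 0 := by
  classical
  unfold IMM
  rw [coeff_sum]
  have hterm : ∀ i : Fin (d + 1) → Fin n,
      coeff (monoY (extPath p) + monoZ (extPath q))
        (if i 0 = 0 ∧ i (Fin.last d) = 0 then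
          (∏ k : Fin d, X (k, i k.castSucc, i k.succ) : MvPolynomial (Fin d × Fin n × Fin n) K)
        else 0) = if i = extPath p ∧ p = q then 1 else 0 := by
    intro i
    by_cases hi : i 0 = 0 ∧ i (Fin.last d) = 0
    · rw [if_pos hi, prod_X_eq_monomial, coeff_monomial]
      by_cases hm : pathMono i = monoY (extPath p) + monoZ (extPath q)
      · have := path_key i (extPath p) (extPath q) hi (extPath_last p)
          ⟨extPath_zero q, extPath_last q⟩ hm
        have hpq : p = q := extPath_injective (this.1.symm.trans this.2)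
        rw [if_pos hm, if_pos ⟨this.1, hpq⟩]
      · rw [if_neg hm, if_neg]
        rintro ⟨h1, h2⟩
        apply hm
        rw [h1, ← h2, monoY_add_monoZ]
    · rw [if_neg hi, coeff_zero, if_neg]
      rintro ⟨h1, _⟩
      apply hi
      rw [h1]
      exact ⟨extPath_zero p, extPath_last p⟩
  rw [Finset.sum_congr rfl fun i _ => hterm i]
  by_cases hpq : p = q
  · simp [hpq]
  · simp [hpq]

theorem imm_rank_lower [NeZero n] {r : ℕ} (h : RankLe (evenVars n d) (IMM K n d) r) :
    n ^ (d - 1) ≤ r := by
  classical
  have := card_le_of_rankLe (P := Fin (d - 1) → Fin n) (fun p => monoY (extPath p))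
    (fun q => monoZ (extPath q)) (fun p => monoY_support _) (fun q => monoZ_support _)
    (fun p q => coeff_IMM p q) h
  simpa using this

theorem IMM_ne_zero [NeZero n] : IMM K n d ≠ 0 := by
  intro h
  have := coeff_IMM (K := K) (n := n) (d := d) (fun _ => 0) (fun _ => 0)
  rw [h] at this
  simp at this

theorem IMM_isHomogeneous [NeZero n] : (IMM K n d).IsHomogeneous d := by
  unfold IMM
  refine IsHomogeneous.sum _ _ _ fun i _ => ?_
  split_ifs
  · have := IsHomogeneous.prod (Finset.univ : Finset (Fin d))
      (fun k => (X (k, i k.castSucc, i k.succ) : MvPolynomial (Fin d × Fin n × Fin n) K))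
      (fun _ => 1) (fun k _ => isHomogeneous_X _ _)
    simpa using this
  · exact isHomogeneous_zero _ _ _

end Vale.Agent.Lib.P346
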