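import Vale.Agent.Lib.P346.Rank
import Vale.Agent.Lib.P346.Defs
import Vale.Agent.Lib.P346.IMMRank

namespace Vale.Agent.Lib.P346

open MvPolynomial

variable {K σ : Type} [Field K]

theorem mem_supported_of_support {Y : Set σ} {f : MvPolynomial σ K}
    (h : ∀ m ∈ f.support, ∀ v ∈ m.support, v ∈ Y) : f ∈ supported K Y := by
  rw [← support_sum_monomial_coeff f]
  exact Subalgebra.sum_mem _ fun m hm => monomial_mem_supported_of m _ (h m hm)

theorem rankLe_of_isHomogeneous_le_one {Y : Set σ} {f : MvPolynomial σ K} {e : ℕ}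
    (hf : f.IsHomogeneous e) (he : e ≤ 1) : RankLe Y f (2 ^ e) := by
  classical
  interval_cases e
  · refine (rankLe_of_mem_left (mem_supported_of_support ?_)).mono (by norm_num)
    intro m hm v hv
    have hsum := hf.degree_eq_sum_deg_support hm
    have h0 : m v = 0 := (Finset.sum_eq_zero_iff.mp hsum.symm) v hv
    exact absurd h0 (Finsupp.mem_support_iff.mp hv)
  · refine (rankLe_two_of_separated ?_).mono (by norm_num)
    intro m hm
    have hsum := hf.degree_eq_sum_deg_support hm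
    by_cases hex : ∃ v ∈ m.support, v ∈ Y
    · obtain ⟨v, hv, hvY⟩ := hex
      left
      intro v' hv'
      by_contra hne
      have hvv : v' ≠ v := fun h => hne (h ▸ hvY)
      have hle : m v + m v' ≤ ∑ i ∈ m.support, m i := by
        calc m v + m v' = ∑ i ∈ ({v, v'} : Finset σ), m i := by
              rw [Finset.sum_pair hvv.symm]
          _ ≤ ∑ i ∈ m.support, m i := Finset.sum_le_sum_of_subset (by
              intro x hx
              simp only [Finset.mem_insert, Finset.mem_singleton] at hx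
              rcases hx with rfl | rfl <;> assumption)
      have h1 := Finsupp.mem_support_iff.mp hv
      have h2 := Finsupp.mem_support_iff.mp hv'
      omega
    · right
      intro v hv hvY
      exact hex ⟨v, hv, hvY⟩

noncomputable def Circuit.valBot (c : Circuit K σ) (a : Fin c.nSumBot) : MvPolynomial σ K :=
  ∑ l, C (c.cBot a l) * Sum.elim X C (c.leaf l)

noncomputable def Circuit.valLow (c : Circuit K σ) (g : Fin c.nProdLow) : MvPolynomial σ K :=
  ∏ a, c.valBot a ^ c.mLow g a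

noncomputable def Circuit.valMid (c : Circuit K σ) (h : Fin c.nSumMid) : MvPolynomial σ K :=
  ∑ g, C (c.cMid h g) * c.valLow g

noncomputable def Circuit.valTop (c : Circuit K σ) (t : Fin c.nProdTop) : MvPolynomial σ K :=
  ∏ h, c.valMid h ^ c.mTop t h

theorem Circuit.eval_eq (c : Circuit K σ) : c.eval = ∑ t, C (c.cOut t) * c.valTop t := rfl

theorem Circuit.isHomogeneous_iff (c : Circuit K σ) :
    c.IsHomogeneous ↔ ∃ dBot dMid dOut, c.HasDegrees dBot dMid dOut := Iff.rfl

variable (c : Circuit K σ) {dBot : Fin c.nSumBot → ℕ} {dMid : Fin c.nSumMid → ℕ} {dOut : ℕ}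

theorem valBot_isHomogeneous (hdeg : c.HasDegrees dBot dMid dOut) (a : Fin c.nSumBot) :
    (c.valBot a).IsHomogeneous (dBot a) := by
  refine IsHomogeneous.sum _ _ _ fun l _ => ?_
  by_cases hc : c.cBot a l = 0
  · rw [hc, C_0, zero_mul]; exact isHomogeneous_zero _ _ _
  · have hl := hdeg.1 a l hc
    rw [← hl]
    cases hleaf : c.leaf l with
    | inl v => simpa using isHomogeneous_C_mul_X (c.cBot a l) v
    | inr k => simpa using (isHomogeneous_C σ k).C_mul (c.cBot a l)

theorem valBot_eq_zero (hdeg : c.HasDegrees dBot dMid dOut) (a : Fin c.nSumBot)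
    (h2 : 2 ≤ dBot a) : c.valBot a = 0 := by
  refine Finset.sum_eq_zero fun l _ => ?_
  have h0 : c.cBot a l = 0 := by
    by_contra hc
    have hl := hdeg.1 a l hc
    cases hleaf : c.leaf l <;> simp [hleaf] at hl <;> omega
  rw [h0, C_0, zero_mul]

theorem valBot_rank (Y : Set σ) (hdeg : c.HasDegrees dBot dMid dOut) (a : Fin c.nSumBot) :
    RankLe Y (c.valBot a) (2 ^ dBot a) := by
  by_cases h : dBot a ≤ 1
  · exact rankLe_of_isHomogeneous_le_one (valBot_isHomogeneous c hdeg a) h
  · rw [valBot_eq_zero c hdeg a (by omega)]; exact rankLe_zero _ _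

theorem valLow_isHomogeneous (hdeg : c.HasDegrees dBot dMid dOut) (g : Fin c.nProdLow) :
    (c.valLow g).IsHomogeneous (∑ a, c.mLow g a * dBot a) := by
  have h := IsHomogeneous.prod Finset.univ (fun a => c.valBot a ^ c.mLow g a)
    (fun a => dBot a * c.mLow g a) (fun a _ => (valBot_isHomogeneous c hdeg a).pow _)
  have e : ∑ a, dBot a * c.mLow g a = ∑ a, c.mLow g a * dBot a :=
    Finset.sum_congr rfl fun a _ => mul_comm _ _
  rw [e] at h
  exact h

theorem valLow_rank (Y : Set σ) (hdeg : c.HasDegrees dBot dMid dOut) (g : Fin c.nProdLow) :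
    RankLe Y (c.valLow g) (2 ^ (∑ a, c.mLow g a * dBot a)) := by
  have h := rankLe_finset_prod (Y := Y) Finset.univ (fun a => c.valBot a ^ c.mLow g a)
    (fun a => (2 ^ dBot a) ^ c.mLow g a) (fun a _ => (valBot_rank c Y hdeg a).pow _)
  have e : ∏ a, ((2 : ℕ) ^ dBot a) ^ c.mLow g a = 2 ^ (∑ a, c.mLow g a * dBot a) := by
    rw [← Finset.prod_pow_eq_pow_sum]
    refine Finset.prod_congr rfl fun a _ => ?_
    rw [← pow_mul, mul_comm]
  rw [e] at h
  exact h

theorem valMid_isHomogeneous (hdeg : c.HasDegrees dBot dMid dOut) (h : Fin c.nSumMid) :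
    (c.valMid h).IsHomogeneous (dMid h) := by
  refine IsHomogeneous.sum _ _ _ fun g _ => ?_
  by_cases hc : c.cMid h g = 0
  · rw [hc, C_0, zero_mul]; exact isHomogeneous_zero _ _ _
  · rw [← hdeg.2.1 h g hc]; exact (valLow_isHomogeneous c hdeg g).C_mul _

theorem valMid_rank (Y : Set σ) (hdeg : c.HasDegrees dBot dMid dOut) (h : Fin c.nSumMid) :
    RankLe Y (c.valMid h) (c.nProdLow * 2 ^ dMid h) := by
  have key : ∀ g ∈ (Finset.univ : Finset (Fin c.nProdLow)),
      RankLe Y (C (c.cMid h g) * c.valLow g) (2 ^ dMid h) := by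
    intro g _
    by_cases hc : c.cMid h g = 0
    · rw [hc, C_0, zero_mul]; exact rankLe_zero _ _
    · rw [← hdeg.2.1 h g hc]; exact (valLow_rank c Y hdeg g).C_mul _
  have hs := rankLe_finset_sum (Y := Y) Finset.univ (fun g => C (c.cMid h g) * c.valLow g)
    (fun _ => 2 ^ dMid h) key
  simpa [Circuit.valMid] using hs

theorem valMid_rank' (Y : Set σ) (hdeg : c.HasDegrees dBot dMid dOut) (h : Fin c.nSumMid) :
    RankLe Y (c.valMid h) ((if 2 ≤ dMid h then c.nProdLow else 1) * 2 ^ dMid h) := by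
  by_cases h2 : 2 ≤ dMid h
  · rw [if_pos h2]; exact valMid_rank c Y hdeg h
  · rw [if_neg h2, one_mul]
    exact rankLe_of_isHomogeneous_le_one (valMid_isHomogeneous c hdeg h) (by omega)

theorem valTop_isHomogeneous (hdeg : c.HasDegrees dBot dMid dOut) (t : Fin c.nProdTop) :
    (c.valTop t).IsHomogeneous (∑ h, c.mTop t h * dMid h) := by
  have h := IsHomogeneous.prod Finset.univ (fun h => c.valMid h ^ c.mTop t h)
    (fun h => dMid h * c.mTop t h) (fun h _ => (valMid_isHomogeneous c hdeg h).pow _)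
  have e : ∑ h, dMid h * c.mTop t h = ∑ h, c.mTop t h * dMid h :=
    Finset.sum_congr rfl fun a _ => mul_comm _ _
  rw [e] at h
  exact h

theorem valTop_rank (Y : Set σ) (hdeg : c.HasDegrees dBot dMid dOut) (t : Fin c.nProdTop) :
    RankLe Y (c.valTop t) (c.nProdLow ^ (∑ h, if 2 ≤ dMid h then c.mTop t h else 0) *
      2 ^ (∑ h, c.mTop t h * dMid h)) := by
  have hp := rankLe_finset_prod (Y := Y) Finset.univ (fun h => c.valMid h ^ c.mTop t h)
    (fun h => ((if 2 ≤ dMid h then c.nProdLow else 1) * 2 ^ dMid h) ^ c.mTop t h)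
    (fun h _ => (valMid_rank' c Y hdeg h).pow _)
  have e : ∏ h, ((if 2 ≤ dMid h then c.nProdLow else 1) * 2 ^ dMid h) ^ c.mTop t h =
      c.nProdLow ^ (∑ h, if 2 ≤ dMid h then c.mTop t h else 0) *
        2 ^ (∑ h, c.mTop t h * dMid h) := by
    simp_rw [mul_pow]
    rw [Finset.prod_mul_distrib, ← Finset.prod_pow_eq_pow_sum, ← Finset.prod_pow_eq_pow_sum]
    congr 1
    · refine Finset.prod_congr rfl fun h _ => ?_
      split_ifs <;> simp
    · refine Finset.prod_congr rfl fun h _ => ?_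
      rw [← pow_mul, mul_comm]
  rw [e] at hp
  exact hp

theorem eval_isHomogeneous (hdeg : c.HasDegrees dBot dMid dOut) :
    c.eval.IsHomogeneous dOut := by
  rw [Circuit.eval_eq]
  refine IsHomogeneous.sum _ _ _ fun t _ => ?_
  by_cases hc : c.cOut t = 0
  · rw [hc, C_0, zero_mul]; exact isHomogeneous_zero _ _ _
  · rw [← hdeg.2.2 t hc]; exact (valTop_isHomogeneous c hdeg t).C_mul _

theorem eval_rank (Y : Set σ) (hdeg : c.HasDegrees dBot dMid dOut) (τ : ℕ)
    (hτ : ∀ t, ∑ h, (if 2 ≤ dMid h then c.mTop t h else 0) ≤ τ) :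
    RankLe Y c.eval (c.size ^ (τ + 1) * 2 ^ dOut) := by
  have hsz1 : 1 ≤ c.size := by unfold Circuit.size; omega
  have hsz2 : c.nProdLow ≤ c.size := by unfold Circuit.size; omega
  have hsz3 : c.nProdTop ≤ c.size := by unfold Circuit.size; omega
  have key : ∀ t ∈ (Finset.univ : Finset (Fin c.nProdTop)),
      RankLe Y (C (c.cOut t) * c.valTop t) (c.size ^ τ * 2 ^ dOut) := by
    intro t _
    by_cases hc : c.cOut t = 0
    · rw [hc, C_0, zero_mul]; exact rankLe_zero _ _
    · have h1 := (valTop_rank c Y hdeg t).C_mul (c.cOut t)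
      rw [hdeg.2.2 t hc] at h1
      refine h1.mono (Nat.mul_le_mul_right _ ?_)
      calc c.nProdLow ^ (∑ h, if 2 ≤ dMid h then c.mTop t h else 0)
          ≤ c.size ^ (∑ h, if 2 ≤ dMid h then c.mTop t h else 0) :=
            Nat.pow_le_pow_left hsz2 _
        _ ≤ c.size ^ τ := Nat.pow_le_pow_right hsz1 (hτ t)
  have hs := rankLe_finset_sum (Y := Y) Finset.univ (fun t => C (c.cOut t) * c.valTop t)
    (fun _ => c.size ^ τ * 2 ^ dOut) key
  rw [Circuit.eval_eq]
  refine hs.mono ?_
  simp only [Finset.sum_const, Finset.card_univ, Fintype.card_fin, smul_eq_mul]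
  rw [pow_succ, mul_comm (c.size ^ τ) c.size, mul_assoc]
  exact Nat.mul_le_mul_right _ hsz3

theorem imm_bound_general {n d : ℕ} [NeZero n] (c : Circuit K (Fin d × Fin n × Fin n))
    (dBot : Fin c.nSumBot → ℕ) (dMid : Fin c.nSumMid → ℕ) (dOut : ℕ)
    (hdeg : c.HasDegrees dBot dMid dOut) (τ : ℕ)
    (hτ : ∀ t, ∑ h, (if 2 ≤ dMid h then c.mTop t h else 0) ≤ τ)
    (hval : c.eval = IMM K n d) : n ^ (d - 1) ≤ 2 ^ d * c.size ^ (τ + 1) := by
  have hd : dOut = d := by
    have h1 := eval_isHomogeneous c hdeg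
    rw [hval] at h1
    exact h1.inj_right IMM_isHomogeneous IMM_ne_zero
  have h2 := eval_rank c (evenVars n d) hdeg τ hτ
  rw [hval, hd] at h2
  have h3 := imm_rank_lower h2
  rw [mul_comm]
  exact h3

theorem imm_bound_fanin {n d : ℕ} [NeZero n] (c : Circuit K (Fin d × Fin n × Fin n))
    (hom : c.IsHomogeneous) (hval : c.eval = IMM K n d) (τ : ℕ)
    (hτ : ∀ t, ∑ h, c.mTop t h ≤ τ) : n ^ (d - 1) ≤ 2 ^ d * c.size ^ (τ + 1) := by
  obtain ⟨dBot, dMid, dOut, hdeg⟩ := hom
  refine imm_bound_general c dBot dMid dOut hdeg τ (fun t => le_trans ?_ (hτ t)) hval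
  refine Finset.sum_le_sum fun h _ => ?_
  split_ifs <;> omega

end Vale.Agent.Lib.P346
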