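import Mathlib

namespace Vale.Agent.Lib.P346

theorem real_tradeoff (n τ s : ℕ) (hn : 4 ≤ n) (h : n ^ (n - 1) ≤ 2 ^ n * s ^ (τ + 1)) :
    (n : ℝ) ^ (((n : ℝ) / 2 - 1) / ((τ : ℝ) + 1)) ≤ (s : ℝ) := by
  have hN : (4 : ℝ) ≤ (n : ℝ) := by exact_mod_cast hn
  have hN0 : (0 : ℝ) < (n : ℝ) := by linarith
  have hS0 : (0 : ℝ) ≤ (s : ℝ) := Nat.cast_nonneg s
  have hcast : (n : ℝ) ^ (n - 1) ≤ 2 ^ n * (s : ℝ) ^ (τ + 1) := by exact_mod_cast h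
  -- 2 ^ n ≤ N ^ (n / 2)
  have h2 : (2 : ℝ) ^ n ≤ (n : ℝ) ^ ((n : ℝ) / 2) := by
    have h2' : (2 : ℝ) ≤ (n : ℝ) ^ ((1 : ℝ) / 2) := by
      have h4 : (4 : ℝ) ^ ((1 : ℝ) / 2) = 2 := by
        rw [show (4 : ℝ) = 2 ^ (2 : ℝ) by norm_num, ← Real.rpow_mul (by norm_num)]
        norm_num
      calc (2 : ℝ) = (4 : ℝ) ^ ((1 : ℝ) / 2) := h4.symm
        _ ≤ (n : ℝ) ^ ((1 : ℝ) / 2) := Real.rpow_le_rpow (by norm_num) hN (by norm_num)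
    calc (2 : ℝ) ^ n ≤ ((n : ℝ) ^ ((1 : ℝ) / 2)) ^ n := pow_le_pow_left₀ (by norm_num) h2' n
      _ = (n : ℝ) ^ ((n : ℝ) / 2) := by
        rw [← Real.rpow_natCast, ← Real.rpow_mul hN0.le]
        congr 1; ring
  have h3 : (n : ℝ) ^ (n - 1) = (n : ℝ) ^ ((n : ℝ) / 2 - 1) * (n : ℝ) ^ ((n : ℝ) / 2) := by
    rw [← Real.rpow_add hN0, ← Real.rpow_natCast]
    congr 1
    have : ((n - 1 : ℕ) : ℝ) = (n : ℝ) - 1 := by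
      rw [Nat.cast_sub (by omega)]; simp
    rw [this]; ring
  have h4 : (n : ℝ) ^ ((n : ℝ) / 2 - 1) ≤ (s : ℝ) ^ (τ + 1) := by
    have hpos : (0 : ℝ) < (n : ℝ) ^ ((n : ℝ) / 2) := Real.rpow_pos_of_pos hN0 _
    have : (n : ℝ) ^ ((n : ℝ) / 2 - 1) * (n : ℝ) ^ ((n : ℝ) / 2) ≤
        (s : ℝ) ^ (τ + 1) * (n : ℝ) ^ ((n : ℝ) / 2) := by
      rw [← h3]
      calc (n : ℝ) ^ (n - 1) ≤ 2 ^ n * (s : ℝ) ^ (τ + 1) := hcast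
        _ ≤ (n : ℝ) ^ ((n : ℝ) / 2) * (s : ℝ) ^ (τ + 1) :=
          mul_le_mul_of_nonneg_right h2 (pow_nonneg hS0 _)
        _ = (s : ℝ) ^ (τ + 1) * (n : ℝ) ^ ((n : ℝ) / 2) := mul_comm _ _
    exact le_of_mul_le_mul_right this hpos
  have h5 : ((s : ℝ) ^ (τ + 1)) ^ ((1 : ℝ) / ((τ : ℝ) + 1)) = (s : ℝ) := by
    have := Real.pow_rpow_inv_natCast hS0 (Nat.succ_ne_zero τ)
    rw [one_div]
    simpa using this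
  calc (n : ℝ) ^ (((n : ℝ) / 2 - 1) / ((τ : ℝ) + 1))
      = ((n : ℝ) ^ ((n : ℝ) / 2 - 1)) ^ ((1 : ℝ) / ((τ : ℝ) + 1)) := by
        rw [← Real.rpow_mul hN0.le]; congr 1; ring
    _ ≤ ((s : ℝ) ^ (τ + 1)) ^ ((1 : ℝ) / ((τ : ℝ) + 1)) :=
        Real.rpow_le_rpow (Real.rpow_nonneg hN0.le _) h4 (by positivity)
    _ = (s : ℝ) := h5

theorem real_sqrt_bound (n a τ s : ℕ) (hn : 9 ≤ n) (ha : 1 ≤ a) (hτ : τ ^ 2 ≤ a ^ 2 * n)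
    (h : n ^ (n - 1) ≤ 2 ^ n * s ^ (τ + 1)) :
    (n : ℝ) ^ (Real.sqrt n / (4 * a)) ≤ (s : ℝ) := by
  have hN : (9 : ℝ) ≤ (n : ℝ) := by exact_mod_cast hn
  have hA : (1 : ℝ) ≤ (a : ℝ) := by exact_mod_cast ha
  have hx0 : 0 ≤ Real.sqrt n := Real.sqrt_nonneg _
  have hx2 : Real.sqrt n ^ 2 = n := Real.sq_sqrt (by linarith)
  have hx3 : (3 : ℝ) ≤ Real.sqrt n := by
    rw [show (3 : ℝ) = Real.sqrt 9 by
      rw [show (9 : ℝ) = 3 ^ 2 by norm_num]; exact (Real.sqrt_sq (by norm_num)).symm]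
    exact Real.sqrt_le_sqrt hN
  have hτ' : (τ : ℝ) ≤ a * Real.sqrt n := by
    have h1 : ((τ : ℝ)) ^ 2 ≤ (a * Real.sqrt n) ^ 2 := by
      rw [mul_pow, hx2]; exact_mod_cast hτ
    exact le_of_sq_le_sq h1 (by positivity)
  refine le_trans ?_ (real_tradeoff n τ s (by omega) h)
  refine Real.rpow_le_rpow_of_exponent_le (by linarith) ?_
  rw [div_le_div_iff₀ (by positivity) (by positivity)]
  nlinarith [mul_nonneg hx0 (sub_nonneg.mpr hA), mul_nonneg (sub_nonneg.mpr hA) (sub_nonneg.mpr hx3)]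

end Vale.Agent.Lib.P346
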