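import Vale.Agent.Lib.P346.CircuitRank
import Vale.Agent.Lib.P346.RealBound

namespace Vale.Agent.Lib.P346

variable {K : Type} [Field K]

theorem imm_sqrt_bound {n : ℕ} [NeZero n] (a : ℕ) (hn : 9 ≤ n) (ha : 1 ≤ a)
    (c : Circuit K (Fin n × Fin n × Fin n)) (hom : c.IsHomogeneous)
    (hval : c.eval = IMM K n n) (hfan : ∀ t, (∑ h, c.mTop t h) ^ 2 ≤ a ^ 2 * n) :
    (n : ℝ) ^ (Real.sqrt n / (4 * a)) ≤ (c.size : ℝ) := by
  have h1 := imm_bound_fanin c hom hval (Nat.sqrt (a ^ 2 * n))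
    (fun t => Nat.le_sqrt'.mpr (hfan t))
  exact real_sqrt_bound n a (Nat.sqrt (a ^ 2 * n)) c.size hn ha (Nat.sqrt_le' _) h1

end Vale.Agent.Lib.P346
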