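import Mathlib

namespace Vale.Agent.Lib.P346

open MvPolynomial

variable {K σ : Type} [Field K]

/-- `f` is a sum of at most `r` products `g * h`, with `g` a polynomial in the variables of `Y`
and `h` a polynomial in the other variables. -/
def RankLe (Y : Set σ) (f : MvPolynomial σ K) (r : ℕ) : Prop :=
  ∃ (ι : Type) (_ : Fintype ι) (g h : ι → MvPolynomial σ K),
    Fintype.card ι ≤ r ∧ (∀ i, g i ∈ supported K Y) ∧ (∀ i, h i ∈ supported K Yᶜ) ∧
      f = ∑ i, g i * h i

theorem RankLe.mono {Y : Set σ} {f : MvPolynomial σ K} {r r' : ℕ} (h : RankLe Y f r)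
    (hr : r ≤ r') : RankLe Y f r' := by
  obtain ⟨ι, inst, g, h, hc, hg, hh, hf⟩ := h
  exact ⟨ι, inst, g, h, hc.trans hr, hg, hh, hf⟩

theorem rankLe_zero (Y : Set σ) (r : ℕ) : RankLe Y (0 : MvPolynomial σ K) r :=
  ⟨Empty, inferInstance, fun _ => 0, fun _ => 0, by simp, fun i => i.elim, fun i => i.elim,
    by simp⟩

theorem rankLe_of_mem_left {Y : Set σ} {f : MvPolynomial σ K} (hf : f ∈ supported K Y) :
    RankLe Y f 1 :=
  ⟨Unit, inferInstance, fun _ => f, fun _ => 1, by simp, fun _ => hf,
    fun _ => Subalgebra.one_mem _, by simp⟩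

theorem rankLe_of_mem_right {Y : Set σ} {f : MvPolynomial σ K} (hf : f ∈ supported K Yᶜ) :
    RankLe Y f 1 :=
  ⟨Unit, inferInstance, fun _ => 1, fun _ => f, by simp, fun _ => Subalgebra.one_mem _,
    fun _ => hf, by simp⟩

theorem rankLe_C (Y : Set σ) (c : K) : RankLe Y (C c : MvPolynomial σ K) 1 :=
  rankLe_of_mem_left (by
    have : (C c : MvPolynomial σ K) = algebraMap K _ c := rfl
    rw [this]; exact Subalgebra.algebraMap_mem _ c)

theorem rankLe_one (Y : Set σ) : RankLe Y (1 : MvPolynomial σ K) 1 :=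
  rankLe_of_mem_left (Subalgebra.one_mem _)

theorem RankLe.add {Y : Set σ} {f f' : MvPolynomial σ K} {r r' : ℕ} (h : RankLe Y f r)
    (h' : RankLe Y f' r') : RankLe Y (f + f') (r + r') := by
  obtain ⟨ι, inst, g, h, hc, hg, hh, hf⟩ := h
  obtain ⟨ι', inst', g', h', hc', hg', hh', hf'⟩ := h'
  refine ⟨ι ⊕ ι', inferInstance, Sum.elim g g', Sum.elim h h', ?_, ?_, ?_, ?_⟩
  · simp only [Fintype.card_sum]; omega
  · rintro (i | i) <;> simp [hg, hg']
  · rintro (i | i) <;> simp [hh, hh']
  · simp [Fintype.sum_sum_type, hf, hf']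

theorem RankLe.mul {Y : Set σ} {f f' : MvPolynomial σ K} {r r' : ℕ} (h : RankLe Y f r)
    (h' : RankLe Y f' r') : RankLe Y (f * f') (r * r') := by
  obtain ⟨ι, inst, g, h, hc, hg, hh, hf⟩ := h
  obtain ⟨ι', inst', g', h', hc', hg', hh', hf'⟩ := h'
  refine ⟨ι × ι', inferInstance, fun p => g p.1 * g' p.2, fun p => h p.1 * h' p.2, ?_, ?_, ?_, ?_⟩
  · simp only [Fintype.card_prod]; exact Nat.mul_le_mul hc hc'
  · intro p; exact Subalgebra.mul_mem _ (hg _) (hg' _)
  · intro p; exact Subalgebra.mul_mem _ (hh _) (hh' _)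
  · rw [hf, hf', Finset.sum_mul_sum, Fintype.sum_prod_type]
    refine Finset.sum_congr rfl fun i _ => Finset.sum_congr rfl fun j _ => ?_
    ring

theorem RankLe.C_mul {Y : Set σ} {f : MvPolynomial σ K} {r : ℕ} (h : RankLe Y f r) (c : K) :
    RankLe Y (C c * f) r := by
  have := (rankLe_C Y c).mul h
  rwa [one_mul] at this

theorem RankLe.pow {Y : Set σ} {f : MvPolynomial σ K} {r : ℕ} (h : RankLe Y f r) (m : ℕ) :
    RankLe Y (f ^ m) (r ^ m) := by
  induction m with
  | zero => simpa using rankLe_one Y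
  | succ m ih => rw [pow_succ, pow_succ]; exact ih.mul h

theorem rankLe_finset_sum {Y : Set σ} {ι : Type} (s : Finset ι) (f : ι → MvPolynomial σ K)
    (r : ι → ℕ) (h : ∀ i ∈ s, RankLe Y (f i) (r i)) :
    RankLe Y (∑ i ∈ s, f i) (∑ i ∈ s, r i) := by
  classical
  induction s using Finset.induction_on with
  | empty => simpa using rankLe_zero Y 0
  | insert a s ha ih =>
    rw [Finset.sum_insert ha, Finset.sum_insert ha]
    exact (h a (Finset.mem_insert_self a s)).add
      (ih fun i hi => h i (Finset.mem_insert_of_mem hi))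

theorem rankLe_finset_prod {Y : Set σ} {ι : Type} (s : Finset ι) (f : ι → MvPolynomial σ K)
    (r : ι → ℕ) (h : ∀ i ∈ s, RankLe Y (f i) (r i)) :
    RankLe Y (∏ i ∈ s, f i) (∏ i ∈ s, r i) := by
  classical
  induction s using Finset.induction_on with
  | empty => simpa using rankLe_one Y
  | insert a s ha ih =>
    rw [Finset.prod_insert ha, Finset.prod_insert ha]
    exact (h a (Finset.mem_insert_self a s)).mul
      (ih fun i hi => h i (Finset.mem_insert_of_mem hi))


theorem monomial_mem_supported_of {Y : Set σ} (m : σ →₀ ℕ) (c : K)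
    (h : ∀ v ∈ m.support, v ∈ Y) : monomial m c ∈ supported K Y := by
  classical
  by_cases hc : c = 0
  · subst hc; simp
  · rw [mem_supported, vars_monomial hc]
    intro v hv
    exact h v (by simpa using hv)

theorem support_subset_of_mem_supported {Y : Set σ} {f : MvPolynomial σ K}
    (hf : f ∈ supported K Y) {m : σ →₀ ℕ} (hm : coeff m f ≠ 0) : ∀ v ∈ m.support, v ∈ Y := by
  classical
  intro v hv
  rw [mem_supported] at hf
  apply hf
  rw [Finset.mem_coe, mem_vars_iff_mem_support]
  exact ⟨m, by rwa [mem_support_iff], hv⟩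

theorem rankLe_two_of_separated {Y : Set σ} {f : MvPolynomial σ K}
    (h : ∀ m ∈ f.support, (∀ v ∈ m.support, v ∈ Y) ∨ (∀ v ∈ m.support, v ∉ Y)) :
    RankLe Y f 2 := by
  classical
  have hf : f = ∑ m ∈ f.support, monomial m (coeff m f) := (support_sum_monomial_coeff f).symm
  rw [hf, ← Finset.sum_filter_add_sum_filter_not f.support (fun m => ∀ v ∈ m.support, v ∈ Y)]
  refine RankLe.add (rankLe_of_mem_left ?_) (rankLe_of_mem_right ?_)
  · refine Subalgebra.sum_mem _ fun m hm => ?_
    rw [Finset.mem_filter] at hm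
    exact monomial_mem_supported_of m _ hm.2
  · refine Subalgebra.sum_mem _ fun m hm => ?_
    rw [Finset.mem_filter] at hm
    refine monomial_mem_supported_of m _ ?_
    rcases h m hm.1 with h1 | h1
    · exact absurd h1 hm.2
    · exact h1

theorem coeff_mul_of_supported {Y : Set σ} {g h : MvPolynomial σ K}
    (hg : g ∈ supported K Y) (hh : h ∈ supported K Yᶜ) (a b : σ →₀ ℕ)
    (ha : ∀ v ∈ a.support, v ∈ Y) (hb : ∀ v ∈ b.support, v ∉ Y) :
    coeff (a + b) (g * h) = coeff a g * coeff b h := by
  classical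
  rw [coeff_mul]
  rw [Finset.sum_eq_single (a, b)]
  · rintro ⟨x, y⟩ hxy hne
    rw [Finset.HasAntidiagonal.mem_antidiagonal] at hxy
    simp only at hxy
    by_contra hcon
    have hx : coeff x g ≠ 0 := fun h0 => hcon (by simp [h0])
    have hy : coeff y h ≠ 0 := fun h0 => hcon (by simp [h0])
    have hxs := support_subset_of_mem_supported hg hx
    have hys := support_subset_of_mem_supported hh hy
    apply hne
    have key : ∀ v, x v = a v ∧ y v = b v := by
      intro v
      have hv : x v + y v = a v + b v := by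
        have := DFunLike.congr_fun hxy v
        simpa using this
      by_cases hvY : v ∈ Y
      · have h1 : y v = 0 := by
          by_contra h0
          exact hys v (Finsupp.mem_support_iff.mpr h0) hvY
        have h2 : b v = 0 := by
          by_contra h0
          exact hb v (Finsupp.mem_support_iff.mpr h0) hvY
        omega
      · have h1 : x v = 0 := by
          by_contra h0
          exact hvY (hxs v (Finsupp.mem_support_iff.mpr h0))
        have h2 : a v = 0 := by
          by_contra h0
          exact hvY (ha v (Finsupp.mem_support_iff.mpr h0))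
        omega
    have hxa : x = a := Finsupp.ext fun v => (key v).1
    have hyb : y = b := Finsupp.ext fun v => (key v).2
    rw [hxa, hyb]
  · intro hnot
    exfalso
    apply hnot
    rw [Finset.HasAntidiagonal.mem_antidiagonal]

theorem card_le_of_rankLe {P : Type} [Fintype P] [DecidableEq P] {Y : Set σ}
    {f : MvPolynomial σ K} (y z : P → σ →₀ ℕ) (hy : ∀ p, ∀ v ∈ (y p).support, v ∈ Y)
    (hz : ∀ p, ∀ v ∈ (z p).support, v ∉ Y)
    (hf : ∀ p q, coeff (y p + z q) f = if p = q then 1 else 0) {r : ℕ} (h : RankLe Y f r) :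
    Fintype.card P ≤ r := by
  classical
  obtain ⟨ι, inst, g, h, hc, hg, hh, hfe⟩ := h
  let A : Matrix P ι K := fun p i => coeff (y p) (g i)
  let B : Matrix ι P K := fun i q => coeff (z q) (h i)
  have hAB : A * B = 1 := by
    ext p q
    rw [Matrix.mul_apply, Matrix.one_apply, ← hf p q, hfe, coeff_sum]
    refine Finset.sum_congr rfl fun i _ => ?_
    exact (coeff_mul_of_supported (hg i) (hh i) (y p) (z q) (hy p) (hz q)).symm
  have h1 : Fintype.card P = (A * B).rank := by rw [hAB, Matrix.rank_one]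
  have h2 : (A * B).rank ≤ B.rank := Matrix.rank_mul_le_right A B
  have h3 : B.rank ≤ Fintype.card ι := Matrix.rank_le_card_height B
  omega

end Vale.Agent.Lib.P346
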